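import Vale.Agent.P318.H272.RMC

/-!
Pair views: the code, translation invariance, hash inclusion.
-/

namespace Vale.Agent.P318.H272

open Finset

variable {X : Type*} [AddCommGroup X] [Module (ZMod 2) X]
variable {A : Type*} [AddCommGroup A] [Module (ZMod 2) A]
variable {B : Type*} [AddCommGroup B] [Module (ZMod 2) B]
variable {ι κ : Type*}

/-- Functions of degree at most `s` of a view. -/
def viewSp (L : X →ₗ[ZMod 2] A) (s : ℕ) : Submodule (ZMod 2) (X → ZMod 2) :=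
  (RM A s).map (LinearMap.funLeft (ZMod 2) (ZMod 2) L)

theorem mem_viewSp {L : X →ₗ[ZMod 2] A} {s : ℕ} {v : X → ZMod 2} :
    v ∈ viewSp L s ↔ ∃ w ∈ RM A s, (fun x => w (L x)) = v := Iff.rfl

/-- The code of a family of views. -/
def codeSp (L : ι → X →ₗ[ZMod 2] A) (s : ℕ) : Submodule (ZMod 2) (X → ZMod 2) :=
  ⨆ i, viewSp (L i) s

theorem viewSp_le_codeSp (L : ι → X →ₗ[ZMod 2] A) (s : ℕ) (i : ι) :
    viewSp (L i) s ≤ codeSp L s := le_iSup (fun i => viewSp (L i) s) i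

theorem viewSp_le_RM (L : X →ₗ[ZMod 2] A) (s : ℕ) : viewSp L s ≤ RM X s := by
  rintro _ ⟨w, hw, rfl⟩
  exact pull_mem L hw

theorem codeSp_le_RM (L : ι → X →ₗ[ZMod 2] A) (s : ℕ) : codeSp L s ≤ RM X s :=
  iSup_le fun i => viewSp_le_RM (L i) s

theorem one_mem_viewSp (L : X →ₗ[ZMod 2] A) (s : ℕ) : (fun _ => 1) ∈ viewSp L s :=
  ⟨fun _ => 1, one_mem s, rfl⟩

theorem one_mem_codeSp (L : ι → X →ₗ[ZMod 2] A) (s : ℕ) [Nonempty ι] :
    (fun _ => 1) ∈ codeSp L s :=
  viewSp_le_codeSp L s (Classical.arbitrary ι) (one_mem_viewSp _ s)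

theorem shift_mem_viewSp {L : X →ₗ[ZMod 2] A} {s : ℕ} {v : X → ZMod 2} (hv : v ∈ viewSp L s)
    (c : X) : (fun x => v (x + c)) ∈ viewSp L s := by
  obtain ⟨w, hw, rfl⟩ := hv
  exact ⟨fun a => w (a + L c), shift_mem (L c) hw, by
    funext x
    simp [LinearMap.funLeft]⟩

/-- A linear map preserving every view space preserves the code. -/
theorem codeSp_induction {L : ι → X →ₗ[ZMod 2] A} {s : ℕ} (S : Submodule (ZMod 2) (X → ZMod 2))
    (h : ∀ i, ∀ w ∈ RM A s, (fun x => w (L i x)) ∈ S) : codeSp L s ≤ S := by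
  refine iSup_le fun i => ?_
  rintro _ ⟨w, hw, rfl⟩
  exact h i w hw

theorem shift_mem_codeSp {L : ι → X →ₗ[ZMod 2] A} {s : ℕ} {v : X → ZMod 2}
    (hv : v ∈ codeSp L s) (c : X) : (fun x => v (x + c)) ∈ codeSp L s := by
  have h := codeSp_induction (L := L) (s := s)
    ((codeSp L s).comap (LinearMap.funLeft (ZMod 2) (ZMod 2) fun x => x + c)) (by
      intro i w hw
      exact viewSp_le_codeSp L s i (shift_mem_viewSp ⟨w, hw, rfl⟩ c))
  exact h hv

/-- Multiplication of a member of the one-view code by a function of a view. -/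
theorem mul_mem_codeSp {L : ι → X →ₗ[ZMod 2] A} (L0 : X →ₗ[ZMod 2] B) {s s' : ℕ}
    (P : κ → X →ₗ[ZMod 2] (B × A)) (hP : ∀ i, ∃ k, P k = L0.prod (L i))
    {u : B → ZMod 2} (hu : u ∈ RM B s') {z : X → ZMod 2} (hz : z ∈ codeSp L s) :
    (fun x => u (L0 x) * z x) ∈ codeSp P (s' + s) := by
  have h := codeSp_induction (L := L) (s := s)
    ((codeSp P (s' + s)).comap
      ((LinearMap.mul (ZMod 2) (X → ZMod 2)) fun x => u (L0 x))) (by
      intro i w hw
      obtain ⟨k, hk⟩ := hP i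
      refine viewSp_le_codeSp P (s' + s) k ?_
      refine ⟨fun a => u a.1 * w a.2, ?_, ?_⟩
      · have h1 := pull_mem (LinearMap.fst (ZMod 2) B A) hu
        have h2 := pull_mem (LinearMap.snd (ZMod 2) B A) hw
        exact mul_mem h1 h2
      · rw [hk]
        rfl)
  exact h hz

/-- Hash inclusion: in every bucket of a linear hash function of a view one may use a
different member of the one-view code. -/
theorem hash_mem_codeSp [Finite κ] {L : ι → X →ₗ[ZMod 2] A} (L0 : X →ₗ[ZMod 2] B) {s l : ℕ}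
    (P : κ → X →ₗ[ZMod 2] (B × A)) (hP : ∀ i, ∃ k, P k = L0.prod (L i))
    (H : B →ₗ[ZMod 2] (Fin l → ZMod 2)) (z : (Fin l → ZMod 2) → X → ZMod 2)
    (hz : ∀ j, z j ∈ codeSp L s) :
    (fun x => z (H (L0 x)) x) ∈ codeSp P (l + s) := by
  classical
  have h : (fun x => z (H (L0 x)) x) =
      ∑ j, fun x => (if H (L0 x) = j then 1 else 0) * z j x := by
    funext x
    rw [Finset.sum_apply]
    simp
  rw [h]
  exact Submodule.sum_mem _ fun j _ => mul_mem_codeSp L0 P hP (fibre_mem H j) (hz j)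

/-- Monotonicity in the degree. -/
theorem codeSp_mono (L : ι → X →ₗ[ZMod 2] A) {s s' : ℕ} (h : s ≤ s') :
    codeSp L s ≤ codeSp L s' :=
  iSup_mono fun _ => Submodule.map_mono (RM_mono h)

/-- The one-view code is contained in the pair code. -/
theorem codeSp_le_pair {L : ι → X →ₗ[ZMod 2] A} (P : κ → X →ₗ[ZMod 2] (B × A)) {s : ℕ}
    (hP : ∀ i, ∃ k, ∃ L0 : X →ₗ[ZMod 2] B, P k = L0.prod (L i)) :
    codeSp L s ≤ codeSp P s := by
  refine codeSp_induction _ fun i w hw => ?_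
  obtain ⟨k, L0, hk⟩ := hP i
  refine viewSp_le_codeSp P s k ⟨fun a => w a.2, pull_mem (LinearMap.snd (ZMod 2) B A) hw, ?_⟩
  rw [hk]
  rfl

/-- Minimum distance of the code. -/
theorem codeSp_min_dist [Fintype X] (L : ι → X →ₗ[ZMod 2] A) (s : ℕ) {v : X → ZMod 2}
    (hv : v ∈ codeSp L s) (h0 : v ≠ 0) :
    Fintype.card X ≤ 2 ^ s * (univ.filter fun y => v y ≠ 0).card :=
  min_dist s v (codeSp_le_RM L s hv) h0

end Vale.Agent.P318.H272
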