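import Mathlib

/-!
Reed-Muller calculus: products of affine functions over the field with two elements.
-/

namespace Vale.Agent.P318.H272

open Finset

variable {Y : Type*} [AddCommGroup Y] [Module (ZMod 2) Y]
variable {Y' : Type*} [AddCommGroup Y'] [Module (ZMod 2) Y']

/-- Affine functions, as pairs. -/
abbrev Aff (Y : Type*) [AddCommGroup Y] [Module (ZMod 2) Y] : Type _ :=
  Module.Dual (ZMod 2) Y × ZMod 2

/-- The affine function of a pair. -/
def af (a : Aff Y) (x : Y) : ZMod 2 := a.1 x + a.2

/-- The span of the products of `s` affine functions. -/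
def RM (Y : Type*) [AddCommGroup Y] [Module (ZMod 2) Y] (s : ℕ) :
    Submodule (ZMod 2) (Y → ZMod 2) :=
  Submodule.span (ZMod 2) (Set.range fun (b : Fin s → Aff Y) (x : Y) => ∏ i, af (b i) x)

theorem prod_mem {s : ℕ} (b : Fin s → Aff Y) : (fun x => ∏ i, af (b i) x) ∈ RM Y s :=
  Submodule.subset_span ⟨b, rfl⟩

theorem add_self2 (a : ZMod 2) : a + a = 0 := CharTwo.add_self_eq_zero a

theorem one_mem (s : ℕ) : (fun _ => 1 : Y → ZMod 2) ∈ RM Y s := by
  have h := prod_mem (Y := Y) (s := s) fun _ => (0, 1)
  simpa [af] using h

theorem mul_mem {s s' : ℕ} {v w : Y → ZMod 2} (hv : v ∈ RM Y s) (hw : w ∈ RM Y s') :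
    (fun x => v x * w x) ∈ RM Y (s + s') := by
  induction hv using Submodule.span_induction with
  | mem v hv =>
    obtain ⟨b, rfl⟩ := hv
    induction hw using Submodule.span_induction with
    | mem w hw =>
      obtain ⟨b', rfl⟩ := hw
      have h := prod_mem (Fin.append b b')
      have e : (fun x : Y => ∏ i, af (Fin.append b b' i) x) =
          fun x => (∏ i, af (b i) x) * ∏ i, af (b' i) x := by
        funext x
        rw [Fin.prod_univ_add]
        simp
      rwa [e] at h
    | zero =>
      have e : (fun x : Y => (∏ i, af (b i) x) * (0 : Y → ZMod 2) x) = 0 := by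
        funext x
        simp
      simp only [e]
      exact Submodule.zero_mem _
    | add w w' _ _ h h' =>
      have e : (fun x : Y => (∏ i, af (b i) x) * (w + w') x) =
          (fun x => (∏ i, af (b i) x) * w x) + fun x => (∏ i, af (b i) x) * w' x := by
        funext x
        simp [mul_add]
      simp only [e]
      exact Submodule.add_mem _ h h'
    | smul a w _ h =>
      have e : (fun x : Y => (∏ i, af (b i) x) * (a • w) x) =
          a • fun x => (∏ i, af (b i) x) * w x := by
        funext x
        simp only [Pi.smul_apply, smul_eq_mul]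
        ring
      simp only [e]
      exact Submodule.smul_mem _ _ h
  | zero =>
    have e : (fun x : Y => (0 : Y → ZMod 2) x * w x) = 0 := by
      funext x
      simp
    rw [e]
    exact Submodule.zero_mem _
  | add v v' _ _ h h' =>
    have e : (fun x : Y => (v + v') x * w x) = (fun x => v x * w x) + fun x => v' x * w x := by
      funext x
      simp [add_mul]
    rw [e]
    exact Submodule.add_mem _ h h'
  | smul a v _ h =>
    have e : (fun x : Y => (a • v) x * w x) = a • fun x => v x * w x := by
      funext x
      simp only [Pi.smul_apply, smul_eq_mul]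
      ring
    rw [e]
    exact Submodule.smul_mem _ _ h

theorem RM_mono {s s' : ℕ} (h : s ≤ s') : RM Y s ≤ RM Y s' := by
  obtain ⟨t, rfl⟩ := Nat.exists_eq_add_of_le h
  intro v hv
  have := mul_mem hv (one_mem (Y := Y) t)
  simpa using this

/-- Pull back along an affine map. -/
theorem comp_mem {s : ℕ} (L : Y' →ₗ[ZMod 2] Y) (c : Y) {v : Y → ZMod 2} (hv : v ∈ RM Y s) :
    (fun x => v (L x + c)) ∈ RM Y' s := by
  induction hv using Submodule.span_induction with
  | mem v hv =>
    obtain ⟨b, rfl⟩ := hv
    have h := prod_mem (Y := Y') (s := s) fun i => ((b i).1.comp L, (b i).1 c + (b i).2)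
    have e : (fun x : Y' => ∏ i, af ((b i).1.comp L, (b i).1 c + (b i).2) x) =
        fun x => ∏ i, af (b i) (L x + c) := by
      funext x
      refine Finset.prod_congr rfl fun i _ => ?_
      simp [af, add_assoc]
    rwa [e] at h
  | zero => exact (RM Y' s).zero_mem
  | add v v' _ _ h h' => exact Submodule.add_mem _ h h'
  | smul a v _ h => exact Submodule.smul_mem _ _ h

theorem pull_mem {s : ℕ} (L : Y' →ₗ[ZMod 2] Y) {v : Y → ZMod 2} (hv : v ∈ RM Y s) :
    (fun x => v (L x)) ∈ RM Y' s := by
  simpa using comp_mem L 0 hv

theorem shift_mem {s : ℕ} (c : Y) {v : Y → ZMod 2} (hv : v ∈ RM Y s) :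
    (fun x => v (x + c)) ∈ RM Y s := by
  simpa using comp_mem LinearMap.id c hv

theorem af_mem (a : Aff Y) : (fun x => af a x) ∈ RM Y 1 := by
  have h := prod_mem (Y := Y) (s := 1) fun _ => a
  simpa using h

/-- A product of affine functions indexed by a finite set. -/
theorem prod_mem' {ι : Type*} (S : Finset ι) (a : ι → Aff Y) :
    (fun x => ∏ i ∈ S, af (a i) x) ∈ RM Y S.card := by
  classical
  induction S using Finset.induction_on with
  | empty => simpa using one_mem (Y := Y) 0
  | insert i S hi ih =>
    have h := mul_mem (af_mem (a i)) ih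
    rw [Finset.card_insert_of_notMem hi, add_comm]
    have e : (fun x : Y => ∏ j ∈ insert i S, af (a j) x) =
        fun x => af (a i) x * ∏ j ∈ S, af (a j) x := by
      funext x
      rw [Finset.prod_insert hi]
    rw [e]
    exact h

/-- The indicator function of a fibre of a linear map to `l` bits. -/
theorem fibre_mem {l : ℕ} (H : Y →ₗ[ZMod 2] (Fin l → ZMod 2)) (j : Fin l → ZMod 2) :
    (fun x => if H x = j then 1 else 0) ∈ RM Y l := by
  classical
  have h := prod_mem (Y := Y) (s := l) fun i => ((LinearMap.proj i).comp H, j i + 1)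
  have e : (fun x : Y => ∏ i, af ((LinearMap.proj i).comp H, j i + 1) x) =
      fun x => if H x = j then 1 else 0 := by
    funext x
    have key : ∀ a b : ZMod 2, a + (b + 1) = if a = b then 1 else 0 := by decide
    simp only [af, LinearMap.comp_apply, LinearMap.proj_apply, key]
    split_ifs with hx
    · subst hx
      simp
    · obtain ⟨i, hi⟩ := Function.ne_iff.mp hx
      exact Finset.prod_eq_zero (Finset.mem_univ i) (if_neg hi)
  rwa [e] at h

/-- The derivative of a product. -/
theorem deriv_prod (h : Y) : ∀ (s : ℕ) (b : Fin (s + 1) → Aff Y),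
    (fun x => (∏ i, af (b i) (x + h)) + ∏ i, af (b i) x) ∈ RM Y s := by
  intro s
  induction s with
  | zero =>
    intro b
    have e : (fun x : Y => (∏ i, af (b i) (x + h)) + ∏ i, af (b i) x) =
        (b 0).1 h • fun _ => 1 := by
      funext x
      have h1 : ∀ f : Fin (0 + 1) → ZMod 2, ∏ i, f i = f 0 := fun f => Fin.prod_univ_one f
      rw [h1, h1]
      simp only [af, map_add, Pi.smul_apply, smul_eq_mul, mul_one]
      have := add_self2 ((b 0).1 x + (b 0).2)
      linear_combination this
    rw [e]
    exact Submodule.smul_mem _ _ (one_mem 0)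
  | succ s ih =>
    intro b
    have h1 := shift_mem h (prod_mem fun i : Fin (s + 1) => b i.succ)
    have h2 := mul_mem (af_mem (b 0)) (ih fun i => b i.succ)
    rw [add_comm 1 s] at h2
    have e : (fun x : Y => (∏ i, af (b i) (x + h)) + ∏ i, af (b i) x) =
        (b 0).1 h • (fun x => ∏ i : Fin (s + 1), af (b i.succ) (x + h)) +
          fun x => af (b 0) x * ((∏ i : Fin (s + 1), af (b i.succ) (x + h)) +
            ∏ i : Fin (s + 1), af (b i.succ) x) := by
      funext x
      simp only [Fin.prod_univ_succ (n := s + 1), af, map_add, Pi.add_apply, Pi.smul_apply,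
        smul_eq_mul]
      ring
    rw [e]
    exact Submodule.add_mem _ (Submodule.smul_mem _ _ h1) h2

theorem deriv_mem {s : ℕ} (h : Y) {v : Y → ZMod 2} (hv : v ∈ RM Y (s + 1)) :
    (fun x => v (x + h) + v x) ∈ RM Y s := by
  induction hv using Submodule.span_induction with
  | mem v hv =>
    obtain ⟨b, rfl⟩ := hv
    exact deriv_prod h s b
  | zero =>
    have e : (fun x : Y => (0 : Y → ZMod 2) (x + h) + (0 : Y → ZMod 2) x) = 0 := by
      funext x
      simp
    rw [e]
    exact Submodule.zero_mem _
  | add v v' _ _ h1 h2 =>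
    have e : (fun x : Y => (v + v') (x + h) + (v + v') x) =
        (fun x => v (x + h) + v x) + fun x => v' (x + h) + v' x := by
      funext x
      simp only [Pi.add_apply]
      ring
    rw [e]
    exact Submodule.add_mem _ h1 h2
  | smul a v _ h1 =>
    have e : (fun x : Y => (a • v) (x + h) + (a • v) x) = a • fun x => v (x + h) + v x := by
      funext x
      simp only [Pi.smul_apply, smul_eq_mul]
      ring
    rw [e]
    exact Submodule.smul_mem _ _ h1

theorem RM_zero {v : Y → ZMod 2} (hv : v ∈ RM Y 0) : ∃ c, v = fun _ => c := by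
  induction hv using Submodule.span_induction with
  | mem v hv =>
    obtain ⟨b, rfl⟩ := hv
    exact ⟨1, by simp⟩
  | zero => exact ⟨0, rfl⟩
  | add v v' _ _ h1 h2 =>
    obtain ⟨c, rfl⟩ := h1
    obtain ⟨c', rfl⟩ := h2
    exact ⟨c + c', rfl⟩
  | smul a v _ h1 =>
    obtain ⟨c, rfl⟩ := h1
    exact ⟨a * c, rfl⟩

/-- The minimum distance of the Reed-Muller code. -/
theorem min_dist [Fintype Y] : ∀ (s : ℕ) (v : Y → ZMod 2), v ∈ RM Y s → v ≠ 0 →
    Fintype.card Y ≤ 2 ^ s * (univ.filter fun y => v y ≠ 0).card := by
  classical
  intro s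
  induction s with
  | zero =>
    intro v hv h0
    obtain ⟨c, rfl⟩ := RM_zero hv
    have hc : c ≠ 0 := by
      rintro rfl
      exact h0 rfl
    simp [hc]
  | succ s ih =>
    intro v hv h0
    by_cases hd : ∃ h : Y, (fun x => v (x + h) + v x) ≠ 0
    · obtain ⟨h, hh⟩ := hd
      have h1 := ih _ (deriv_mem h hv) hh
      have h2 : (univ.filter fun y => (fun x => v (x + h) + v x) y ≠ 0).card ≤
          2 * (univ.filter fun y => v y ≠ 0).card := by
        have h3 : (univ.filter fun y => (fun x => v (x + h) + v x) y ≠ 0) ⊆
            (univ.filter fun y => v (y + h) ≠ 0) ∪ univ.filter fun y => v y ≠ 0 := by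
          intro y hy
          simp only [mem_filter, mem_univ, true_and, mem_union] at hy ⊢
          by_contra hcon
          push Not at hcon
          exact hy (by rw [hcon.1, hcon.2, add_zero])
        have h4 : (univ.filter fun y => v (y + h) ≠ 0).card =
            (univ.filter fun y => v y ≠ 0).card := by
          refine Finset.card_bij (fun y _ => y + h) ?_ ?_ ?_
          · intro y hy
            simpa using hy
          · intro y _ y' _ hyy
            exact add_right_cancel hyy
          · intro y hy
            exact ⟨y - h, by simpa using hy, by simp⟩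
        calc _ ≤ _ := Finset.card_le_card h3
          _ ≤ _ := Finset.card_union_le _ _
          _ = _ := by rw [h4]; ring
      calc Fintype.card Y ≤ 2 ^ s * _ := h1
        _ ≤ 2 ^ s * (2 * (univ.filter fun y => v y ≠ 0).card) := Nat.mul_le_mul_left _ h2
        _ = _ := by ring
    · push Not at hd
      have hconst : ∀ x, v x = v 0 := by
        intro x
        have := congrFun (hd x) 0
        simp only [zero_add, Pi.zero_apply] at this
        have h2 := add_self2 (v 0)
        linear_combination this - h2
      have hv0 : v 0 ≠ 0 := by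
        intro h
        exact h0 (funext fun x => by rw [hconst x, h]; rfl)
      have h5 : (univ.filter fun y => v y ≠ 0) = univ := by
        refine Finset.filter_true_of_mem fun y _ => ?_
        rw [hconst y]
        exact hv0
      rw [h5, Finset.card_univ]
      exact Nat.le_mul_of_pos_left _ (by positivity)

end Vale.Agent.P318.H272
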