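import Vale.Agent.P318.H937.Spec
import Vale.Agent.P318.H269.CodeProps
import Vale.Agent.P318.H272.Hash

/-!
# P318: the hash family (`SpecHASH`)
-/

open Finset

namespace Vale.Agent.P318.H272

open Vale.Agent.P318 Vale.Agent.P318.H937

theorem card_hash_le {X : Type} [AddCommGroup X] [Module (ZMod 2) X] (l : ℕ)
    [Fintype (H269.Hsh X l)] (w : X) [Decidable (w = 0)] :
    (Nat.card {H : H269.Hsh X l // H w = 0} : ℝ) ≤
      (if w = 0 then (Fintype.card (H269.Hsh X l) : ℝ) else 0) +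
        (1 / 2) ^ l * Fintype.card (H269.Hsh X l) := by
  classical
  rw [Nat.card_eq_fintype_card, Fintype.card_subtype]
  split_ifs with h
  · have h1 : (univ.filter fun H : H269.Hsh X l => H w = 0).card ≤ Fintype.card (H269.Hsh X l) :=
      card_le_univ _
    have h2 : ((univ.filter fun H : H269.Hsh X l => H w = 0).card : ℝ) ≤
      Fintype.card (H269.Hsh X l) := by exact_mod_cast h1
    have h3 : (0 : ℝ) ≤ (1 / 2) ^ l * Fintype.card (H269.Hsh X l) := by positivity
    linarith
  · have h1 := H269.card_hash_kernel l h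
    have h2 : (2 : ℝ) ^ l * ((univ.filter fun H : H269.Hsh X l => H w = 0).card : ℝ) =
        Fintype.card (H269.Hsh X l) := by
      rw [← h1]; push_cast; rfl
    rw [← h2, ← mul_assoc, ← mul_pow]
    norm_num

theorem spec_hash : SpecHASH := by
  intro X _ _ _ _ M n m' dT Bn Dn s s1 l N0 N hN hDn hN0 𝒢 G0 hG0 p hp hs1 hl
  classical
  have hfin : Finite (H269.Hsh X l) :=
    Finite.of_injective (fun f => (f : X → Fin l → ZMod 2)) DFunLike.coe_injective
  let _ : Fintype (H269.Hsh X l) := Fintype.ofFinite _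
  have : Nonempty (Fin N0) := ⟨⟨0, hN0⟩⟩
  have : Nonempty (Fin Dn) := ⟨⟨0, hDn⟩⟩
  let e : (Fin l → ZMod 2) ≃ Fin (2 ^ l) := Fintype.equivFinOfCardEq (by simp)
  let π : Fin N0 × (Fin M → Fin Dn) → X →ₗ[ZMod 2] X :=
    fun ij => N.view ∅ fun v => (G0 ij.1 v, ij.2 v)
  refine ⟨(Fin N0 × (Fin M → Fin Dn)) × H269.Hsh X l, inferInstance, inferInstance, 2 ^ l,
    fun θ x => e (θ.2 (π θ.1 x)), ?_, ?_⟩
  · intro x x' hxx
    have hz : x - x' ≠ 0 := sub_ne_zero.2 hxx
    have h0 := hp (x - x') hz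
    have h1 : Nat.card {θ : (Fin N0 × (Fin M → Fin Dn)) × H269.Hsh X l //
        e (θ.2 (π θ.1 x)) = e (θ.2 (π θ.1 x'))} =
        ∑ ij : Fin N0 × (Fin M → Fin Dn),
          Nat.card {H : H269.Hsh X l // H (π ij (x - x')) = 0} := by
      rw [← Nat.card_sigma]
      refine Nat.card_congr ((Equiv.subtypeEquivRight ?_).trans
        (Equiv.subtypeProdEquivSigmaSubtype
        (fun (ij : Fin N0 × (Fin M → Fin Dn)) (H : H269.Hsh X l) => H (π ij (x - x')) = 0)))
      intro θ
      rw [e.apply_eq_iff_eq, map_sub, map_sub, sub_eq_zero]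
    have h2 : (Nat.card ((Fin N0 × (Fin M → Fin Dn)) × H269.Hsh X l) : ℝ) =
        (N0 * (Dn : ℝ) ^ M) * Fintype.card (H269.Hsh X l) := by
      rw [Nat.card_prod, Nat.card_eq_fintype_card, Nat.card_eq_fintype_card, Fintype.card_prod,
        Fintype.card_fun, Fintype.card_fin, Fintype.card_fin, Fintype.card_fin]
      push_cast
      ring
    rw [h1, h2, Nat.cast_sum]
    refine (sum_le_sum fun ij _ => card_hash_le l (π ij (x - x'))).trans ?_
    rw [sum_add_distrib, ← sum_filter, sum_const, sum_const, card_univ, Fintype.card_prod,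
      Fintype.card_fun, Fintype.card_fin, Fintype.card_fin, Fintype.card_fin, nsmul_eq_mul,
      nsmul_eq_mul, add_mul]
    refine add_le_add ?_ (le_of_eq ?_)
    · rw [← mul_assoc]
      refine mul_le_mul_of_nonneg_right ?_ (by positivity)
      exact h0
    · push_cast
      ring
  · intro θ z hz
    have hy : IsView N 𝒢 (∅, fun v => (G0 θ.1.1 v, θ.1.2 v)) :=
      H269.isView_empty N 𝒢 (hG0 θ.1.1) θ.1.2
    have h1 := hash_mem_codeSp (L := fun T : H269.ViewT N 𝒢 => N.view T.1.1 T.1.2) (s := s1)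
      (l := l) (π θ.1) (H269.pviewL N 𝒢) (fun i => ⟨(⟨_, hy⟩, i), rfl⟩) θ.2
      (fun j => z (e j)) (fun j => by
        have := hz (e j)
        rwa [H269.codeV1_eq] at this)
    rw [H269.codeV_eq]
    exact codeSp_mono _ (by omega) h1

end Vale.Agent.P318.H272

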